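import Vale.Agent.P275.H341.Rows2

/-!
# Row M1: sums over the characters of the units
-/

set_option linter.style.haveILetI false
set_option linter.unusedSectionVars false

namespace Vale.Agent.P275.H347

open scoped BigOperators MatrixGroups
open Module Matrix Vale.Agent.P275.H85 Vale.Agent.P275.H341

/-- a function on the divisors of `n` with Moebius sums -/
theorem moebius_of_sums {n : ℕ} (hn : 0 < n) (c : ℂ) (S : ℕ → ℂ)
    (h : ∀ s, s ∣ n → ∑ t ∈ s.divisors, S t = if s = 1 then c else 0) :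
    ∀ s, s ∣ n → S s = c * ((ArithmeticFunction.moebius s : ℤ) : ℂ) := by
  intro s
  induction s using Nat.strong_induction_on with
  | _ s ih =>
    intro hs
    have hs0 : 0 < s := Nat.pos_of_dvd_of_pos hs hn
    have h1 := h s hs
    have h2 : ∑ t ∈ s.divisors, ((ArithmeticFunction.moebius t : ℤ) : ℂ) = if s = 1 then 1 else 0 := by
      have h3 : ∑ t ∈ s.divisors, ArithmeticFunction.moebius t = if s = 1 then 1 else 0 := by
        rw [← ArithmeticFunction.coe_zeta_mul_apply, ArithmeticFunction.coe_zeta_mul_moebius,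
          ArithmeticFunction.one_apply]
      have h4 := congrArg (fun z : ℤ => (z : ℂ)) h3
      simp only [Int.cast_sum] at h4
      rw [h4]
      split_ifs <;> simp
    rw [← Nat.insert_self_properDivisors hs0.ne', Finset.sum_insert Nat.self_notMem_properDivisors]
      at h1 h2
    have h4 : ∑ t ∈ s.properDivisors, S t
        = c * ∑ t ∈ s.properDivisors, ((ArithmeticFunction.moebius t : ℤ) : ℂ) := by
      rw [Finset.mul_sum]
      apply Finset.sum_congr rfl
      intro t ht
      rw [Nat.mem_properDivisors] at ht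
      exact ih t ht.2 (ht.1.trans hs)
    rw [h4] at h1
    have h5 : (if s = 1 then c else 0) = c * (if s = 1 then 1 else 0) := by
      split_ifs <;> simp
    rw [h5, ← h2] at h1
    linear_combination h1

variable {F : Type} [Field F] [Fintype F] [DecidableEq F]

/-- the sum over the characters with `(ω ε) ^ d = 1` -/
theorem sum_dual_dvd {n : ℕ} (hn : 0 < n) {ε : Fˣ} (hε : orderOf ε = n) {d : ℕ} (hd : d ∣ n) :
    ∑ ω : Fˣ →* ℂˣ, (if orderOf (ω ε) ∣ d then ((ω ε : ℂˣ) : ℂ)⁻¹ else 0)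
      = if d = 1 then ((Fintype.card F : ℂ) - 1) / n else 0 := by
  obtain ⟨e, rfl⟩ := hd
  have hd0 : 0 < d := Nat.pos_of_mul_pos_right hn
  have he0 : 0 < e := Nat.pos_of_mul_pos_left hn
  have he : (e : ℂ) ≠ 0 := by exact_mod_cast he0.ne'
  -- the indicator as a mean
  have h1 : ∀ ω : Fˣ →* ℂˣ, (if orderOf (ω ε) ∣ d then ((ω ε : ℂˣ) : ℂ)⁻¹ else 0)
      = (e : ℂ)⁻¹ * ∑ j ∈ Finset.range e, ((ω (ε ^ (d * j) * ε⁻¹) : ℂˣ) : ℂ) := by
    intro ω
    have h2 : ∀ j, ((ω (ε ^ (d * j) * ε⁻¹) : ℂˣ) : ℂ)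
        = (((ω ε : ℂˣ) : ℂ) ^ d) ^ j * ((ω ε : ℂˣ) : ℂ)⁻¹ := by
      intro j
      rw [map_mul, map_pow, map_inv, Units.val_mul, Units.val_pow_eq_pow_val, pow_mul,
        Units.val_inv_eq_inv_val]
    simp only [h2]
    rw [← Finset.sum_mul]
    have h3 : ((((ω ε : ℂˣ) : ℂ) ^ d)) ^ e = 1 := by
      rw [← pow_mul, ← Units.val_pow_eq_pow_val, ← map_pow, ← hε, pow_orderOf_eq_one, map_one,
        Units.val_one]
    by_cases h : orderOf (ω ε) ∣ d
    · rw [if_pos h]
      have h4 : ((ω ε : ℂˣ) : ℂ) ^ d = 1 := by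
        rw [← Units.val_pow_eq_pow_val, orderOf_dvd_iff_pow_eq_one.mp h, Units.val_one]
      rw [h4]
      simp only [one_pow, Finset.sum_const, Finset.card_range, nsmul_eq_mul, mul_one]
      rw [← mul_assoc, inv_mul_cancel₀ he, one_mul]
    · rw [if_neg h]
      have h4 : ((ω ε : ℂˣ) : ℂ) ^ d ≠ 1 := by
        intro h5
        apply h
        apply orderOf_dvd_of_pow_eq_one
        apply Units.ext
        rw [Units.val_pow_eq_pow_val, h5, Units.val_one]
      rw [geom_sum_eq h4, h3, sub_self, zero_div, zero_mul, mul_zero]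
  simp only [h1]
  rw [← Finset.mul_sum, Finset.sum_comm]
  simp only [sum_dual]
  have hq : ((Fintype.card F - 1 : ℕ) : ℂ) = (Fintype.card F : ℂ) - 1 := by
    have : 1 ≤ Fintype.card F := Fintype.card_pos
    push_cast [this]
    ring
  rw [hq]
  have h6 : ∀ j, ε ^ (d * j) * ε⁻¹ = 1 ↔ d * j ≡ 1 [MOD (d * e)] := by
    intro j
    have h7 := pow_eq_pow_iff_modEq (x := ε) (n := d * j) (m := 1)
    rw [pow_one, hε] at h7
    rw [mul_inv_eq_one]
    exact h7
  split_ifs with hd1
  · subst hd1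
    rw [Finset.sum_eq_single (1 % e)]
    · rw [if_pos]
      · push_cast
        rw [one_mul]
        field_simp
      · rw [h6, one_mul, one_mul]
        exact Nat.mod_modEq 1 e
    · intro j hj hne
      rw [if_neg]
      intro h7
      rw [h6] at h7
      apply hne
      rw [one_mul, one_mul] at h7
      have h8 := Finset.mem_range.mp hj
      unfold Nat.ModEq at h7
      rw [Nat.mod_eq_of_lt h8] at h7
      exact h7
    · intro h7
      exact absurd (Finset.mem_range.mpr (Nat.mod_lt _ he0)) h7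
  · rw [Finset.sum_eq_zero, mul_zero]
    intro j _
    rw [if_neg]
    intro h7
    rw [h6] at h7
    have h8 := (h7.of_mul_right e)
    unfold Nat.ModEq at h8
    rw [Nat.mul_mod_right] at h8
    exact hd1 (Nat.dvd_one.mp (Nat.dvd_of_mod_eq_zero h8.symm))

theorem rmone : RMone := by
  intro F _ _ _ n hn ε hε f
  classical
  set S : ℕ → ℂ := fun s => ∑ ω : Fˣ →* ℂˣ, (if orderOf (ω ε) = s then ((ω ε : ℂˣ) : ℂ)⁻¹ else 0)
    with hS
  have hord : ∀ ω : Fˣ →* ℂˣ, orderOf (ω ε) ∣ n := by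
    intro ω
    apply orderOf_dvd_of_pow_eq_one
    rw [← map_pow, ← hε, pow_orderOf_eq_one, map_one]
  have h1 : ∀ s, s ∣ n → ∑ t ∈ s.divisors, S t
      = if s = 1 then ((Fintype.card F : ℂ) - 1) / n else 0 := by
    intro s hs
    rw [← sum_dual_dvd hn hε hs, hS]
    simp only
    rw [Finset.sum_comm]
    apply Finset.sum_congr rfl
    intro ω _
    rw [Finset.sum_ite_eq]
    have hs0 : s ≠ 0 := (Nat.pos_of_dvd_of_pos hs hn).ne'
    simp only [Nat.mem_divisors, hs0, ne_eq, not_false_eq_true, and_true]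
  have h2 := moebius_of_sums hn _ S h1
  have h3 : ∑ ω : Fˣ →* ℂˣ, f (orderOf (ω ε)) * ((ω ε : ℂˣ) : ℂ)⁻¹
      = ∑ s ∈ n.divisors, f s * S s := by
    rw [hS]
    simp only [Finset.mul_sum]
    rw [Finset.sum_comm]
    apply Finset.sum_congr rfl
    intro ω _
    rw [Finset.sum_eq_single (orderOf (ω ε))]
    · rw [if_pos rfl]
    · intro s _ hne
      rw [if_neg (fun h => hne h.symm), mul_zero]
    · intro h4
      exact absurd (Nat.mem_divisors.mpr ⟨hord ω, hn.ne'⟩) h4
  rw [h3, Finset.mul_sum]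
  apply Finset.sum_congr rfl
  intro s hs
  rw [h2 s (Nat.mem_divisors.mp hs).1]
  ring

end Vale.Agent.P275.H347
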