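import Vale.Agent.P275.H341.Rows

/-!
# Row NORM: a sum of `N` nonzero positive functions of norm `N`
-/

set_option linter.style.haveILetI false
set_option linter.unusedSectionVars false

namespace Vale.Agent.P275.H347

open scoped BigOperators MatrixGroups
open Vale.Agent.P275.H85 Vale.Agent.P275.H341

section gen

variable {G : Type} [Group G] [Fintype G]

/-- two positive functions have a natural inner product -/
theorem Pos.ip_nat {f g : G → ℂ} (hf : Pos f) (hg : Pos g) : ∃ n : ℕ, ip f g = n := by
  classical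
  choose! a ha using hf.2
  choose! b hb using hg.2
  refine ⟨∑ χ ∈ irrSet G, a χ * b χ, ?_⟩
  rw [ip_expand f g hf.1]
  push_cast
  apply Finset.sum_congr rfl
  intro χ hχ
  rw [ha χ (mem_irrSet.mp hχ), hb χ (mem_irrSet.mp hχ)]

/-- a positive function of norm zero vanishes -/
theorem Pos.eq_zero {f : G → ℂ} (hf : Pos f) (h : ip f f = 0) : f = 0 := by
  classical
  apply complete f hf.1
  intro χ hχ
  choose! a ha using hf.2
  rw [ip_expand f f hf.1] at h
  have h1 : ∑ χ ∈ irrSet G, a χ * a χ = 0 := by
    have h2 : ((∑ χ ∈ irrSet G, a χ * a χ : ℕ) : ℂ) = 0 := by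
      push_cast
      rw [← h]
      apply Finset.sum_congr rfl
      intro χ hχ
      rw [ha χ (mem_irrSet.mp hχ)]
    exact_mod_cast h2
  have h3 := Finset.sum_eq_zero_iff.mp h1 χ (mem_irrSet.mpr hχ)
  rw [ha χ hχ, mul_self_eq_zero.mp h3]
  simp

/-- Row NORM -/
theorem norm_row {ι : Type} [Fintype ι] (P : ι → G → ℂ) (hP : ∀ i, Pos (P i))
    (h0 : ∀ i, P i ≠ 0) (hN : ip (∑ i, P i) (∑ i, P i) = Fintype.card ι) :
    (∀ i, IsIrrChar (P i)) ∧ Function.Injective P := by
  classical
  choose N hNN using fun i k => Pos.ip_nat (hP i) (hP k)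
  have hd : ∀ i, 1 ≤ N i i := by
    intro i
    rw [Nat.one_le_iff_ne_zero]
    intro h
    apply h0 i
    apply Pos.eq_zero (hP i)
    rw [hNN, h]
    simp
  have hsum : ∑ i, ∑ k, N i k = Fintype.card ι := by
    have h1 : ((∑ i, ∑ k, N i k : ℕ) : ℂ) = (Fintype.card ι : ℂ) := by
      rw [← hN, ip_sum_left]
      push_cast
      apply Finset.sum_congr rfl
      intro i _
      rw [ip_sum_right]
      apply Finset.sum_congr rfl
      intro k _
      rw [hNN]
    exact_mod_cast h1
  have hge : ∀ i, N i i ≤ ∑ k, N i k := fun i =>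
    Finset.single_le_sum (f := fun k => N i k) (fun _ _ => Nat.zero_le _) (Finset.mem_univ i)
  have h1 : ∀ i, ∑ k, N i k = 1 := by
    have h2 : ∑ i : ι, 1 = ∑ i, ∑ k, N i k := by
      rw [hsum]
      simp
    have h3 := (Finset.sum_eq_sum_iff_of_le (fun i _ => le_trans (hd i) (hge i))).mp h2
    intro i
    exact (h3 i (Finset.mem_univ i)).symm
  have hdd : ∀ i, N i i = 1 := fun i => le_antisymm (by rw [← h1 i]; exact hge i) (hd i)
  constructor
  · intro i
    apply (hP i).irr_of_norm_one
    rw [hNN, hdd]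
    simp
  · intro i k hik
    by_contra hne
    have h2 : N i i + N i k ≤ ∑ k, N i k := by
      rw [← Finset.sum_pair hne]
      exact Finset.sum_le_sum_of_subset (Finset.subset_univ _)
    rw [h1 i, hdd i] at h2
    have h3 : N i k = 1 := by
      have h4 : (N i k : ℂ) = (N i i : ℂ) := by
        rw [← hNN, ← hNN, hik]
      have h5 : N i k = N i i := by exact_mod_cast h4
      rw [h5, hdd]
    omega

end gen

theorem rnorm : RNorm := by
  intro G _ _ ι _ P hP h0 hN
  exact norm_row P hP h0 hN

end Vale.Agent.P275.H347
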