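import Vale.Agent.P275.H347.Perm

/-!
# Row STR: structure of the stable irreducible characters of `GL_{2m}`
-/

set_option linter.style.haveILetI false
set_option linter.unusedSectionVars false

namespace Vale.Agent.P275.H347

open scoped BigOperators MatrixGroups
open Module Matrix Vale.Agent.P275.H85 Vale.Agent.P275.H341

variable {F : Type} [Field F] [Fintype F] [DecidableEq F]

theorem twist_inj (κ : Fˣ →* ℂˣ) : Function.Injective (Cu.twist κ : Cu F → Cu F) := by
  intro c c' h
  have h1 := congrArg (Cu.twist κ⁻¹) h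
  have e : κ * κ⁻¹ = 1 := MonoidHom.ext (fun x => mul_inv_cancel (κ x))
  rw [Cu.twist_twist, Cu.twist_twist, e, Cu.twist_one, Cu.twist_one] at h1
  exact h1

theorem twist_pow_succ (κ : Fˣ →* ℂˣ) (c : Cu F) (j : ℕ) :
    (c.twist (κ ^ j)).twist κ = c.twist (κ ^ (j + 1)) := by
  rw [Cu.twist_twist, hpow_succ]

theorem twist_pow_add (κ : Fˣ →* ℂˣ) (c : Cu F) (i j : ℕ) :
    (c.twist (κ ^ i)).twist (κ ^ j) = c.twist (κ ^ (i + j)) := by
  have e : κ ^ i * κ ^ j = κ ^ (i + j) := (pow_add κ i j).symm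
  rw [Cu.twist_twist, e]

theorem twist_mul_period {κ : Fˣ →* ℂˣ} {c : Cu F} {j : ℕ} (h : c.twist (κ ^ j) = c) (a : ℕ) :
    c.twist (κ ^ (j * a)) = c := by
  induction a with
  | zero => rw [mul_zero, hpow_zero, Cu.twist_one]
  | succ a ih => rw [mul_add, mul_one, ← twist_pow_add, ih, h]

/-- the orbit is closed -/
theorem orb_closed {κ : Fˣ →* ℂˣ} {c : Cu F} {j : ℕ} (hj : 0 < j) (h : c.twist (κ ^ j) = c)
    (i : ℕ) : c.twist (κ ^ i) ∈ orb c κ j := by
  rw [mem_orb]
  refine ⟨i % j, Nat.mod_lt _ hj, ?_⟩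
  conv_rhs => rw [← Nat.div_add_mod i j, ← twist_pow_add, twist_mul_period h]

theorem orb_map_perm {κ : Fˣ →* ℂˣ} {c : Cu F} {j : ℕ} (hj : 0 < j) (h : c.twist (κ ^ j) = c)
    (hnd : (orb c κ j).Nodup) : (orb c κ j).Perm ((orb c κ j).map (Cu.twist κ)) := by
  have h1 : ((orb c κ j).map (Cu.twist κ)).Nodup := hnd.map (twist_inj κ)
  have h2 : (orb c κ j).map (Cu.twist κ) ⊆ orb c κ j := by
    intro x hx
    obtain ⟨y, hy, rfl⟩ := List.mem_map.mp hx
    obtain ⟨i, _, rfl⟩ := mem_orb.mp hy
    rw [twist_pow_succ]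
    exact orb_closed hj h _
  have h3 := h1.subperm h2
  exact (h3.perm_of_length_le (by rw [List.length_map])).symm

/-- the minimal period -/
theorem exists_period {m : ℕ} (hm : 0 < m) {κ : Fˣ →* ℂˣ} (hκ : κ ^ m = 1) (c : Cu F) :
    ∃ j, 0 < j ∧ c.twist (κ ^ j) = c ∧ (orb c κ j).Nodup := by
  classical
  have hex : ∃ j, 0 < j ∧ c.twist (κ ^ j) = c := ⟨m, hm, by rw [hκ, Cu.twist_one]⟩
  refine ⟨Nat.find hex, (Nat.find_spec hex).1, (Nat.find_spec hex).2, ?_⟩
  have hmin : ∀ i, i < Nat.find hex → ¬ (0 < i ∧ c.twist (κ ^ i) = c) :=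
    fun i hi => Nat.find_min hex hi
  have hper := (Nat.find_spec hex).2
  set j := Nat.find hex with hjdef
  have key : ∀ a b, a ≤ b → b < j → c.twist (κ ^ a) = c.twist (κ ^ b) → a = b := by
    intro a b hab hb h
    by_contra hne
    apply hmin (b - a) (by omega)
    refine ⟨by omega, ?_⟩
    have h1 := congrArg (Cu.twist (κ ^ (j - a))) h
    rw [twist_pow_add, twist_pow_add, show a + (j - a) = j by omega,
      show b + (j - a) = j + (b - a) by omega, ← twist_pow_add, hper] at h1
    exact h1.symm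
  unfold orb
  apply List.Nodup.map_on _ List.nodup_range
  intro a ha b hb h
  rw [List.mem_range] at ha hb
  rcases le_total a b with hab | hab
  · exact key a b hab hb h
  · exact (key b a hab ha h.symm).symm

/-- the support of a stable irreducible character -/
theorem support_stable {n : ℕ} (hn : 0 < n) {κ : Fˣ →* ℂˣ}
    {χ : GL (Fin n) F → ℂ} (hχ : IsIrrChar χ) (hst : ∀ g, tw κ g * χ g = χ g) :
    ∃ L : List (Cu F), size L = n ∧ ip (rs n (prodC L)) χ ≠ 0 ∧
      L.Perm (L.map (Cu.twist κ)) := by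
  classical
  obtain ⟨L, hLn, hLχ⟩ := exists_support n hn χ hχ
  refine ⟨L, hLn, hLχ, ?_⟩
  subst hLn
  have h1 : ip (rs (size L) (prodC (L.map (Cu.twist κ)))) χ ≠ 0 := by
    rw [prodC_twist, rs_twf]
    have e1 : χ = fun g => (twh (size L) κ g : ℂ) * χ g := by
      funext g
      rw [← tw_eq, hst]
    rw [e1]
    have e2 := ip_twist (twh (size L) κ) (rs (size L) (prodC L)) χ
    simp only [tw_eq]
    rw [e2]
    exact hLχ
  have hpos' : Pos (rs (size L) (prodC (L.map (Cu.twist κ)))) := by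
    have := pos_prodC (L.map (Cu.twist κ))
    rwa [size_twist] at this
  exact perm_of_pair L _ (pos_common (pos_prodC L) hpos' hχ hLχ h1)

/-- split off one orbit -/
theorem split_orbit {m : ℕ} (hm : 0 < m) {κ : Fˣ →* ℂˣ} (hκ : orderOf κ = m)
    {L : List (Cu F)} (hL : L.Perm (L.map (Cu.twist κ))) (h0 : 0 < size L) :
    ∃ (c : Cu F) (j : ℕ) (L' : List (Cu F)), 0 < j ∧ c.twist (κ ^ j) = c ∧ (orb c κ j).Nodup ∧
      m ∣ j * c.s ∧ L.Perm (orb c κ j ++ L') ∧ L'.Perm (L'.map (Cu.twist κ)) ∧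
      size L = j * c.s + size L' := by
  classical
  obtain ⟨c, hc⟩ : ∃ c, c ∈ L := by
    cases L with
    | nil => exact absurd h0 (lt_irrefl _)
    | cons c L => exact ⟨c, List.mem_cons_self⟩
  have hclosed : ∀ j : ℕ, c.twist (κ ^ j) ∈ L := by
    intro j
    induction j with
    | zero => rw [hpow_zero, Cu.twist_one]; exact hc
    | succ j ih =>
      have h2 : (c.twist (κ ^ j)).twist κ ∈ L.map (Cu.twist κ) := List.mem_map_of_mem ih
      rw [twist_pow_succ] at h2
      exact hL.symm.subset h2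
  obtain ⟨j, hj, hper, hnd⟩ := exists_period hm (by rw [← hκ]; exact pow_orderOf_eq_one κ) c
  have hsub : (orb c κ j) ⊆ L := by
    intro c' hc'
    obtain ⟨i, _, rfl⟩ := mem_orb.mp hc'
    exact hclosed i
  obtain ⟨l, hl, hlL⟩ := hnd.subperm hsub
  obtain ⟨L', hL''⟩ := hlL.exists_perm_append
  have hL' : L.Perm (orb c κ j ++ L') := hL''.trans (hl.append_right _)
  refine ⟨c, j, L', hj, hper, hnd, ?_, hL', ?_, ?_⟩
  · have h1 := twist_eq_dvd (i := 0) (j := j) hκ (Nat.zero_le _)
      (by rw [hpow_zero, Cu.twist_one, hper])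
    simpa using h1
  · have h1 : (orb c κ j ++ L').Perm ((orb c κ j ++ L').map (Cu.twist κ)) :=
      hL'.symm.trans (hL.trans (hL'.map _))
    rw [List.map_append] at h1
    have h2 : (orb c κ j ++ L').Perm (orb c κ j ++ L'.map (Cu.twist κ)) :=
      h1.trans ((orb_map_perm hj hper hnd).symm.append_right _)
    exact (List.perm_append_left_iff _).mp h2
  · rw [size_perm hL', size_append, size_orb, add_comm]

/-- two orbits with a common member and the same total size -/
theorem orb_perm_of_mem {κ : Fˣ →* ℂˣ} {c c' x : Cu F} {j j' : ℕ} (hj : 0 < j) (hj' : 0 < j')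
    (h : c.twist (κ ^ j) = c) (h' : c'.twist (κ ^ j') = c') (hnd' : (orb c' κ j').Nodup)
    (hx : x ∈ orb c κ j) (hx' : x ∈ orb c' κ j') (hs : j * c.s = j' * c'.s) :
    (orb c' κ j').Perm (orb c κ j) := by
  have hss : c.s = c'.s := by rw [← orb_s hx, ← orb_s hx']
  have hjj : j = j' := by
    rw [hss] at hs
    exact Nat.eq_of_mul_eq_mul_right c'.pos hs
  subst hjj
  obtain ⟨a, ha, hax⟩ := mem_orb.mp hx
  obtain ⟨b, hb, hbx⟩ := mem_orb.mp hx'
  have hc' : c' ∈ orb c κ j := by
    have h1 : c' = c.twist (κ ^ (a + (j - b))) := by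
      rw [← twist_pow_add, hax, ← hbx, twist_pow_add, show b + (j - b) = j by omega, h']
    rw [h1]
    exact orb_closed hj h _
  obtain ⟨d, hd, hdc⟩ := mem_orb.mp hc'
  have hsub : orb c' κ j ⊆ orb c κ j := by
    intro y hy
    obtain ⟨i, _, rfl⟩ := mem_orb.mp hy
    rw [← hdc, twist_pow_add]
    exact orb_closed hj h _
  exact (hnd'.subperm hsub).perm_of_length_le (by rw [orb_length, orb_length])

theorem rstr : RStr := by
  intro F _ _ _ m hm κ hκ χ hχ hst
  classical
  obtain ⟨L, hLn, hLχ, hperm⟩ := support_stable (by omega) hχ hst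
  obtain ⟨c, j, L1, hj, hper, hnd, hdvd, hL1, hL1p, hsz⟩ :=
    split_orbit hm hκ hperm (by rw [hLn]; omega)
  obtain ⟨t, ht⟩ := hdvd
  have hjc : 0 < j * c.s := Nat.mul_pos hj c.pos
  have ht0 : 0 < t := by
    rcases Nat.eq_zero_or_pos t with h | h
    · rw [h, mul_zero] at ht; omega
    · exact h
  have ht2 : t ≤ 2 := by
    by_contra h
    have h1 : m * 3 ≤ m * t := Nat.mul_le_mul_left _ (by omega)
    omega
  have hχeq : ∀ L2 : List (Cu F), L.Perm L2 → L2.Nodup → χ = rs (m + m) (prodC L2) := by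
    intro L2 h2 hn2
    have h3 : IsIrrChar (rs (m + m) (prodC L2)) := irr_nodup (by rw [← size_perm h2, hLn]) hn2
    rw [rs_perm hLn h2, ip_irr h3 hχ] at hLχ
    by_contra hne
    exact hLχ (if_neg (fun h => hne h.symm))
  have ht' : t = 1 ∨ t = 2 := by omega
  rcases ht' with rfl | rfl
  · -- the orbit has total size `m`
    rw [mul_one] at ht
    obtain ⟨c', j', L2, hj', hper', hnd', hdvd', hL2, hL2p, hsz'⟩ :=
      split_orbit hm hκ hL1p (by omega)
    obtain ⟨t', ht'⟩ := hdvd'
    have hjc' : 0 < j' * c'.s := Nat.mul_pos hj' c'.pos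
    have ht0' : 0 < t' := by
      rcases Nat.eq_zero_or_pos t' with h | h
      · rw [h, mul_zero] at ht'; omega
      · exact h
    have ht1' : m * 1 ≤ m * t' := Nat.mul_le_mul_left _ (by omega)
    have hs2 : j' * c'.s = m := by omega
    have hz : size L2 = 0 := by omega
    have hL2n : L2 = [] := by
      cases L2 with
      | nil => rfl
      | cons x L2 =>
        exfalso
        have := x.pos
        have h1 : size (x :: L2) = size L2 + x.s := rfl
        omega
    rw [hL2n, List.append_nil] at hL2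
    have hLL : L.Perm (orb c κ j ++ orb c' κ j') := hL1.trans (hL2.append_left _)
    by_cases hdis : (orb c κ j ++ orb c' κ j').Nodup
    · right; left
      exact ⟨c, c', j, j', ht, hs2, hper, hper', hdis, hχeq _ hLL hdis⟩
    · right; right
      refine ⟨c, j, ht, hper, hnd, ?_⟩
      have h1 : ¬ (orb c κ j).Disjoint (orb c' κ j') := by
        intro h
        exact hdis (List.nodup_append'.mpr ⟨hnd, hnd', h⟩)
      unfold List.Disjoint at h1
      push Not at h1
      obtain ⟨x, hx, hx', _⟩ := h1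
      have h2 := orb_perm_of_mem hj hj' hper hper' hnd' hx hx' (by rw [ht, hs2])
      rw [← rs_perm hLn (hLL.trans (h2.append_left _))]
      exact hLχ
  · left
    have hs2 : j * c.s = m + m := by omega
    have hz : size L1 = 0 := by omega
    have hL1n : L1 = [] := by
      cases L1 with
      | nil => rfl
      | cons x L1 =>
        exfalso
        have := x.pos
        have h1 : size (x :: L1) = size L1 + x.s := rfl
        omega
    rw [hL1n, List.append_nil] at hL1
    exact ⟨c, j, hs2, hper, hnd, hχeq _ hL1 hnd⟩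

end Vale.Agent.P275.H347
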