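import Vale.Agent.P275.H347.Norm

/-!
# Products of cuspidal characters do not depend on the order
-/

set_option linter.style.haveILetI false
set_option linter.unusedSectionVars false

namespace Vale.Agent.P275.H347

open scoped BigOperators MatrixGroups
open Module Matrix Vale.Agent.P275.H85 Vale.Agent.P275.H341

section gen

variable {G : Type} [Group G] [Fintype G]

/-- two positive functions with equal norms and inner product are equal -/
theorem Pos.eq_of {f g : G → ℂ} (hf : Pos f) (hg : Pos g) (h1 : ip f f = ip f g)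
    (h2 : ip g g = ip f g) : f = g := by
  classical
  choose! a ha using hf.2
  choose! b hb using hg.2
  rw [ip_expand f f hf.1, ip_expand f g hf.1] at h1
  rw [ip_expand g g hg.1, ip_expand f g hf.1] at h2
  have e1 : ∑ χ ∈ irrSet G, ((a χ : ℤ) * a χ) = ∑ χ ∈ irrSet G, ((a χ : ℤ) * b χ) := by
    have h3 : ((∑ χ ∈ irrSet G, ((a χ : ℤ) * a χ) : ℤ) : ℂ)
        = ((∑ χ ∈ irrSet G, ((a χ : ℤ) * b χ) : ℤ) : ℂ) := by
      push_cast
      refine Eq.trans ?_ (h1.trans ?_)
      · apply Finset.sum_congr rfl
        intro χ hχ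
        rw [ha χ (mem_irrSet.mp hχ)]
      · apply Finset.sum_congr rfl
        intro χ hχ
        rw [ha χ (mem_irrSet.mp hχ), hb χ (mem_irrSet.mp hχ)]
    exact_mod_cast h3
  have e2 : ∑ χ ∈ irrSet G, ((b χ : ℤ) * b χ) = ∑ χ ∈ irrSet G, ((a χ : ℤ) * b χ) := by
    have h3 : ((∑ χ ∈ irrSet G, ((b χ : ℤ) * b χ) : ℤ) : ℂ)
        = ((∑ χ ∈ irrSet G, ((a χ : ℤ) * b χ) : ℤ) : ℂ) := by
      push_cast
      refine Eq.trans ?_ (h2.trans ?_)
      · apply Finset.sum_congr rfl
        intro χ hχ
        rw [hb χ (mem_irrSet.mp hχ)]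
      · apply Finset.sum_congr rfl
        intro χ hχ
        rw [ha χ (mem_irrSet.mp hχ), hb χ (mem_irrSet.mp hχ)]
    exact_mod_cast h3
  have e3 : ∑ χ ∈ irrSet G, ((a χ : ℤ) - b χ) ^ 2 = 0 := by
    have h3 : ∀ χ ∈ irrSet G, ((a χ : ℤ) - b χ) ^ 2
        = (a χ : ℤ) * a χ + (b χ : ℤ) * b χ - 2 * ((a χ : ℤ) * b χ) := fun χ _ => by ring
    rw [Finset.sum_congr rfl h3, Finset.sum_sub_distrib, Finset.sum_add_distrib, e1, e2,
      ← Finset.mul_sum]
    ring
  have e4 : ∀ χ ∈ irrSet G, (a χ : ℤ) = b χ := by
    intro χ hχ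
    have h3 := (Finset.sum_eq_zero_iff_of_nonneg (fun χ _ => sq_nonneg _)).mp e3 χ hχ
    have h4 := pow_eq_zero_iff (two_ne_zero) |>.mp h3
    omega
  rw [expand f hf.1, expand g hg.1]
  apply Finset.sum_congr rfl
  intro χ hχ
  have h5 : a χ = b χ := by exact_mod_cast e4 χ hχ
  rw [ha χ (mem_irrSet.mp hχ), hb χ (mem_irrSet.mp hχ), h5]

end gen

variable {F : Type} [Field F] [Fintype F] [DecidableEq F]

open scoped Classical in
/-- the sum over the places of `c` -/
theorem places_perm (c : Cu F) {L1 L2 : List (Cu F)} (h : L1.Perm L2) :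
    ∀ g : List (Cu F) → ℂ, (∀ M M', M.Perm M' → g M = g M') →
    (∑ i : Fin L1.length, if c = L1.get i then g (L1.eraseIdx i) else 0)
      = ∑ i : Fin L2.length, if c = L2.get i then g (L2.eraseIdx i) else 0 := by
  induction h with
  | nil => intro g _; rfl
  | @cons x l1 l2 hl ih =>
    intro g hg
    have e1 : ∀ l : List (Cu F), (∑ i : Fin (x :: l).length,
        if c = (x :: l).get i then g ((x :: l).eraseIdx i) else 0)
        = (if c = x then g l else 0) + ∑ i : Fin l.length,
          if c = l.get i then g (x :: l.eraseIdx i) else 0 := by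
      intro l
      simp only [List.length_cons, Fin.sum_univ_succ]
      rfl
    rw [e1, e1, hg _ _ hl, ih (fun M => g (x :: M)) (fun M M' hM => hg _ _ (hM.cons x))]
  | @swap x y l =>
    intro g hg
    have e1 : ∀ x y : Cu F, (∑ i : Fin (x :: y :: l).length,
        if c = (x :: y :: l).get i then g ((x :: y :: l).eraseIdx i) else 0)
        = (if c = x then g (y :: l) else 0) + ((if c = y then g (x :: l) else 0) +
          ∑ i : Fin l.length, if c = l.get i then g (x :: y :: l.eraseIdx i) else 0) := by
      intro x y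
      simp only [List.length_cons, Fin.sum_univ_succ]
      rfl
    rw [e1, e1]
    have e2 : ∀ i : Fin l.length, g (x :: y :: l.eraseIdx i) = g (y :: x :: l.eraseIdx i) :=
      fun i => hg _ _ (List.Perm.swap _ _ _)
    simp only [e2]
    ring
  | trans _ _ ih1 ih2 =>
    intro g hg
    rw [ih1 g hg, ih2 g hg]

theorem pair_perm (L : List (Cu F)) : ∀ L1 L2 : List (Cu F), L1.Perm L2 →
    pair L L1 = pair L L2 := by
  classical
  induction L with
  | nil =>
    intro L1 L2 h
    by_cases h1 : pair [] L1 = 0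
    · by_cases h2 : pair [] L2 = 0
      · rw [h1, h2]
      · have h3 := perm_of_pair [] L2 h2
        have h4 := List.Perm.nil_eq (h3.trans h.symm)
        have h5 := List.Perm.nil_eq h3
        rw [← h4, ← h5]
    · have h3 := perm_of_pair [] L1 h1
      have h4 := List.Perm.nil_eq (h3.trans h)
      have h5 := List.Perm.nil_eq h3
      rw [← h4, ← h5]
  | cons c L ih =>
    intro L1 L2 h
    rw [pair_cons, pair_cons]
    exact places_perm c h (fun M => pair L M) ih

theorem pair_symm {L L' : List (Cu F)} (h : size L = size L') : pair L L' = pair L' L := by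
  unfold pair
  rw [h, ip_comm]

/-- the product does not depend on the order -/
theorem rs_perm {L L' : List (Cu F)} {n : ℕ} (hn : size L = n) (h : L.Perm L') :
    rs n (prodC L) = rs n (prodC L') := by
  have hs := size_perm h
  have h1 : pair L L = pair L L' := pair_perm L L L' h
  have h2 : pair L' L' = pair L L' := by
    rw [pair_perm L' L' L h.symm, pair_symm hs]
  have hp1 := pos_prodC L
  have hp2 := pos_prodC L'
  unfold pair at h1 h2
  rw [← hs] at h2 hp2
  subst hn
  exact Pos.eq_of hp1 hp2 h1 h2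

/-- the product does not depend on the order, as a family -/
theorem prodC_perm {L L' : List (Cu F)} (h : L.Perm L') : prodC L = prodC L' := by
  have h1 := toCF_rs' (inv_prodC L) (supp_prodC L)
  have h2 := toCF_rs' (inv_prodC L') (supp_prodC L')
  rw [← h1, ← h2, rs_perm rfl h, size_perm h]

theorem irr_nodup {L : List (Cu F)} {n : ℕ} (hn : size L = n) (h : L.Nodup) :
    IsIrrChar (rs n (prodC L)) := by
  subst hn
  exact irr_of_nodup h

end Vale.Agent.P275.H347
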